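import Mathlib

/-!
# P100: definitions

See `notes/P100.md` for the whole proof.  Everything lives on `E n = EuclideanSpace ℝ (Fin n)` with
Lebesgue measure `volume`.
-/

open MeasureTheory Set Metric Filter Topology

noncomputable section

namespace Vale.Agent.P100

abbrev E (n : ℕ) : Type := EuclideanSpace ℝ (Fin n)

variable {n : ℕ}

/-! ## Laplacian, supersolutions -/

/-- the Laplacian of Mathlib -/
def lap (w : E n → ℝ) (x : E n) : ℝ := Laplacian.laplacian w x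

/-- derivative in the coordinate direction `i` -/
def pd (i : Fin n) (w : E n → ℝ) (x : E n) : ℝ := fderiv ℝ w x (EuclideanSpace.single i 1)

/-- `u > 0` is continuous, `C²` off the origin, and `-Δ u = f ≥ 0` off the origin -/
structure Sup (u f : E n → ℝ) : Prop where
  cu : Continuous u
  du : ContDiffOn ℝ 2 u {0}ᶜ
  pos : ∀ x, 0 < u x
  mf : Measurable f
  nf : ∀ x, 0 ≤ f x
  eq : ∀ x, x ≠ 0 → -lap u x = f x

/-! ## The bump and its kernels -/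

/-- `ph s = (1 - s)^(5/2)`; it vanishes for `s ≥ 1` because `cos (5π/2) = 0` -/
def ph (s : ℝ) : ℝ := (1 - s) ^ (5 / 2 : ℝ)

/-- `rh = -2 ph'` -/
def rh (s : ℝ) : ℝ := 5 * (1 - s) ^ (3 / 2 : ℝ)

/-- `t^(1-n) ph (|ζ|²/t²)` -/
def Pk (t : ℝ) (ζ : E n) : ℝ := t / t ^ n * ph (‖ζ‖ ^ 2 / t ^ 2)

/-- `t^(-n) rh (|ζ|²/t²)` -/
def Rk (t : ℝ) (ζ : E n) : ℝ := (t ^ n)⁻¹ * rh (‖ζ‖ ^ 2 / t ^ 2)

/-- the common value of `∂ₜ Rk` and `Δ Pk` -/
def Lk (t : ℝ) (ζ : E n) : ℝ :=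
  (t ^ (n + 1))⁻¹ * (-(n : ℝ) * rh (‖ζ‖ ^ 2 / t ^ 2) +
    15 * (‖ζ‖ ^ 2 / t ^ 2) * (1 - ‖ζ‖ ^ 2 / t ^ 2) ^ (1 / 2 : ℝ))

/-- total mass of `Rk t` -/
def mass (n : ℕ) : ℝ := ∫ z : E n, rh (‖z‖ ^ 2)

/-- truncated kernel -/
def kk (h : ℝ) (ζ : E n) : ℝ := ∫ t in Ioo 0 h, Pk t ζ

/-- tail kernel -/
def Tk (h : ℝ) (ζ : E n) : ℝ := ∫ t in Ioi h, Pk t ζ

/-- Newton kernel with constant `κ` (value `0` at the origin when `n ≠ 2`) -/
def Kr (κ : ℝ) (ζ : E n) : ℝ := κ * ‖ζ‖ ^ (2 - (n : ℝ))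

/-- what the rest of the proof uses about a supersolution -/
structure RepP (κ C : ℝ) (u f : E n → ℝ) : Prop where
  locf : ∀ ρ, IntegrableOn f (ball 0 ρ)
  intK : ∀ x, Integrable (fun z => Kr κ (x - z) * f z)
  leK : ∀ x, ∫ z, Kr κ (x - z) * f z ≤ u x
  mean : ∀ x ρ, 0 < ρ → ∫ y in ball x ρ, u y ≤ C * ρ ^ n * u x
  lip : ∀ r d, 0 < d → ∀ y ∈ ball (0 : E n) (r - d), ∀ y' ∈ ball (0 : E n) (r - d),
    |(u y - ∫ z in ball 0 r, Kr κ (y - z) * f z) - (u y' - ∫ z in ball 0 r, Kr κ (y' - z) * f z)| ≤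
      C * ((d ^ (n + 1))⁻¹ * (∫ z in ball 0 r, u z) + d / d ^ n * ∫ z in ball 0 r, f z) * ‖y - y'‖

/-- minimum over the closed ball of radius `R` -/
def mn (u : E n → ℝ) (R : ℝ) : ℝ := sInf (u '' closedBall 0 R)

/-! ## The nonlinearity -/

/-- primitive of `s^p` -/
def Vp (p s : ℝ) : ℝ := s ^ (p + 1) / (p + 1)

/-- right-hand side `|x|^A v^p` -/
def fw (A p : ℝ) (v : E n → ℝ) (x : E n) : ℝ := ‖x‖ ^ A * v x ^ p

/-- energy density `|x|^A v^(p+1)/(p+1)` -/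
def Fw (A p : ℝ) (v : E n → ℝ) (x : E n) : ℝ := ‖x‖ ^ A * Vp p (v x)

/-- energy in the ball of radius `r` -/
def En (A p : ℝ) (v : E n → ℝ) (r : ℝ) : ℝ := ∫ x in ball 0 r, Fw A p v x

/-- the term that is odd in the centre `c` -/
def Lin (A p : ℝ) (v : E n → ℝ) (r : ℝ) (c : E n) : ℝ :=
  A * ∫ x in ball 0 r, Fw A p v x * (inner ℝ c x / ‖x‖ ^ 2)

/-- positive, continuous, `C²` off the origin -/
structure Nice (v : E n → ℝ) : Prop where
  cont : Continuous v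
  diff : ContDiffOn ℝ 2 v {0}ᶜ
  pos : ∀ x, 0 < v x

/-! ## Abstract flows -/

/-- a measurable flow whose time-`t` map multiplies the measure by `exp (m t)` -/
structure Flow {X : Type*} [MeasurableSpace X] (μ : Measure X) (φ : ℝ → X → X) (m : ℝ) : Prop where
  meas : Measurable (fun w : ℝ × X => φ w.1 w.2)
  zero : ∀ x, φ 0 x = x
  add : ∀ s t x, φ s (φ t x) = φ (s + t) x
  jac : ∀ t, μ.map (φ t) = ENNReal.ofReal (Real.exp (-(m * t))) • μ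

/-- `S` is a union of open orbit segments; the segment through `x` is `t ∈ (-α x, β x)` -/
structure Seg {X : Type*} [MeasurableSpace X] (φ : ℝ → X → X) (S : Set X) (α β : X → ℝ) : Prop where
  mS : MeasurableSet S
  mα : Measurable α
  mβ : Measurable β
  pα : ∀ x ∈ S, 0 < α x
  pβ : ∀ x ∈ S, 0 < β x
  mem : ∀ x ∈ S, ∀ t ∈ Ioo (-α x) (β x), φ t x ∈ S
  eα : ∀ x ∈ S, ∀ t ∈ Ioo (-α x) (β x), α (φ t x) = α x + t
  eβ : ∀ x ∈ S, ∀ t ∈ Ioo (-α x) (β x), β (φ t x) = β x - t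

/-- average along the orbit segment -/
def avg {X : Type*} (φ : ℝ → X → X) (m : ℝ) (α β : X → ℝ) (H : X → ℝ) (x : X) : ℝ :=
  (α x + β x)⁻¹ * ∫ t in Ioo (-α x) (β x), H (φ t x) * Real.exp (m * t)

/-! ## The dilation flow with centre `c` -/

/-- dilation with centre `c` and ratio `exp t` -/
def fl (c : E n) (t : ℝ) (x : E n) : E n := c + Real.exp t • (x - c)

/-- derivative of `v` along the flow -/
def dv (c : E n) (v : E n → ℝ) (x : E n) : ℝ := fderiv ℝ v x (x - c)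

/-- the antisymmetric part of `-(y - c)·∇ K(y - z)` -/
def Qk (κ : ℝ) (c y z : E n) : ℝ :=
  ((n : ℝ) - 2) * Kr κ (y - z) * (‖y - c‖ ^ 2 - ‖z - c‖ ^ 2) / (2 * ‖y - z‖ ^ 2)

/-- `y - c` and `z - c` are nonzero and not on the same ray -/
def NC (c y z : E n) : Prop := inner ℝ (y - c) (z - c) < ‖y - c‖ * ‖z - c‖

/-- distance from `c` of the midpoint of the orbit segment -/
def mid (c : E n) (α β : E n → ℝ) (x : E n) : ℝ := Real.exp ((β x - α x) / 2) * ‖x - c‖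

/-- one layer: short segments `S` with the frozen weight `σ` -/
structure Lay1 (c : E n) (S : Set (E n)) (α β σ : E n → ℝ) : Prop where
  seg : Seg (fl c) S α β
  mσ : Measurable σ
  nσ : ∀ x, 0 ≤ σ x
  zσ : ∀ x, x ∉ S → σ x = 0
  eσ : ∀ x ∈ S, ∀ t ∈ Ioo (-α x) (β x),
    σ (fl c t x) = σ x * Real.exp (-(((n : ℝ) + 2) / 2 * t))

/-- finitely many layers below `F` -/
structure Lay (c : E n) (F : E n → ℝ) : Type where
  J : ℕ
  S : Fin J → Set (E n)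
  α : Fin J → E n → ℝ
  β : Fin J → E n → ℝ
  σ : Fin J → E n → ℝ
  one : ∀ j, Lay1 c (S j) (α j) (β j) (σ j)
  le : ∀ x, ∑ j, σ j x ≤ F x

/-- `F` times the cutoff, with the cutoff frozen at the midpoint on every short segment -/
def Lay.phi {c : E n} {F : E n → ℝ} (L : Lay c F) (Ψ : ℝ → ℝ) (x : E n) : ℝ :=
  F x * Ψ ‖x - c‖ + ∑ j, L.σ j x * (Ψ (mid c (L.α j) (L.β j) x) - Ψ ‖x - c‖)

/-- a decreasing cutoff from `1` (left of `r₁`) to `0` (right of `r₂`) with slope at most `L` -/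
structure Cut (Ψ : ℝ → ℝ) (r₁ r₂ L : ℝ) : Prop where
  diff : Differentiable ℝ Ψ
  anti : Antitone Ψ
  nonneg : ∀ s, 0 ≤ Ψ s
  le_one : ∀ s, Ψ s ≤ 1
  one : ∀ s, s ≤ r₁ → Ψ s = 1
  zero : ∀ s, r₂ ≤ s → Ψ s = 0
  bd : ∀ s, |deriv Ψ s| ≤ L
  dz : ∀ s, s ∉ Icc r₁ r₂ → deriv Ψ s = 0

/-- derivative of the cutoff `Ψ |x - c|` along the flow -/
def dΨ (c : E n) (Ψ : ℝ → ℝ) (x : E n) : ℝ := deriv Ψ ‖x - c‖ * ‖x - c‖

/-- sizes: `R ≤ r < r + d ≤ 2R`, half-length `e` of short segments, centre `c` -/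
structure Geo (R r d e : ℝ) (c : E n) : Prop where
  hd : 0 < d
  hr : R ≤ r
  hrd : r + d ≤ 2 * R
  he : 0 < e
  heR : 64 * e * R ≤ d
  hc : 8 * ‖c‖ ≤ d

/-- the superlevel set in the ball of radius `ρ` -/
def Dset (v : E n → ℝ) (s ρ : ℝ) : Set (E n) := {x | ‖x‖ < ρ ∧ s < v x}

/-- mass of `F` at points whose image under `fl c (± e)` lies in `D` -/
def Bad (c : E n) (e : ℝ) (D : Set (E n)) (F : E n → ℝ) (ρ : ℝ) : ℝ :=
  ∫ x in ball 0 ρ, F x * (D.indicator 1 (fl c e x) + D.indicator 1 (fl c (-e) x))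

/-- the `j`-th level `(j τ)^(1/p)` with `τ = s₁^p` -/
def lev (p s₁ : ℝ) (j : ℕ) : ℝ := ((j : ℝ) * s₁ ^ p) ^ (1 / p)

end Vale.Agent.P100
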